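import Vale.Agent.P203.Defs

/-!
# P203 Cox1: the geometric representation on `B → ℝ` and positivity of roots (done)
The abstract part is taken from `Vale.Agent.P035.Geom`.
-/

namespace Vale.Agent.P203

open Real

section geom_abs

variable {B : Type} {W : Type*} [Group W] {M : CoxeterMatrix B} {V : Type*} [AddCommGroup V] [Module ℝ V]

/-- A symmetric form with simple roots. -/
structure GeomData (M : CoxeterMatrix B) (V : Type*) [AddCommGroup V] [Module ℝ V] where
  bil : V →ₗ[ℝ] V →ₗ[ℝ] ℝ
  al : B → V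
  symm : ∀ x y, bil x y = bil y x
  gram : ∀ i j, bil (al i) (al j) = -cos (π / M i j)

namespace GeomData

variable (D : GeomData M V)

theorem norm (i : B) : D.bil (D.al i) (D.al i) = 1 := by simp [D.gram]

/-- The simple reflections. -/
def sg (i : B) : Module.End ℝ V := 1 - (2 • D.bil (D.al i)).smulRight (D.al i)

theorem sg_apply (i : B) (v : V) : D.sg i v = v - (2 * D.bil v (D.al i)) • D.al i := by
  simp [sg, D.symm v]

theorem sg_two (i j : B) (x y : ℝ) : D.sg j (x • D.al i + y • D.al j) =
    x • D.al i + (2 * cos (π / M i j) * x - y) • D.al j := by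
  rw [sg_apply]
  simp only [map_add, map_smul, LinearMap.add_apply, LinearMap.smul_apply, D.norm, D.gram i j,
    smul_eq_mul]
  module

theorem rot_pow (i j : B) {u : ℕ → ℝ} (hu : ∀ k, u (k + 2) = 2 * cos (π / M i j) * u (k + 1) - u k)
    (n : ℕ) : ((D.sg i * D.sg j) ^ n) (u 1 • D.al i + u 0 • D.al j) =
      u (2 * n + 1) • D.al i + u (2 * n) • D.al j := by
  induction n with
  | zero => simp
  | succ n ih =>
    rw [pow_succ', Module.End.mul_apply, ih, Module.End.mul_apply, sg_two, ← hu, add_comm,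
      sg_two, M.symmetric j i, ← hu, add_comm]
    rfl

theorem geom_sin (θ φ : ℝ) (k : ℕ) : sin (((k + 2 : ℕ) : ℝ) * θ + φ) =
    2 * cos θ * sin (((k + 1 : ℕ) : ℝ) * θ + φ) - sin (k * θ + φ) := by
  have h1 : ((k + 2 : ℕ) : ℝ) * θ + φ = (((k + 1 : ℕ) : ℝ) * θ + φ) + θ := by push_cast; ring
  have h2 : (k : ℝ) * θ + φ = (((k + 1 : ℕ) : ℝ) * θ + φ) - θ := by push_cast; ring
  rw [h1, h2, sin_add, sin_sub]
  ring

theorem geom_sin_pos {m : ℕ} (hm : 2 ≤ m) : 0 < sin (π / m) := by
  have h : (2 : ℝ) ≤ m := by exact_mod_cast hm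
  exact sin_pos_of_pos_of_lt_pi (div_pos pi_pos (by linarith)) (div_lt_self pi_pos (by linarith))

theorem liftable : M.IsLiftable D.sg := by
  intro i j
  by_cases hij : i = j
  · subst hij
    ext v
    simp only [M.diagonal, pow_one, Module.End.mul_apply, sg_apply, map_sub, map_smul, D.norm,
      Module.End.one_apply]
    module
  rcases Nat.eq_zero_or_pos (M i j) with h0 | h0
  · rw [h0, pow_zero]
  have hm : 2 ≤ M i j := by have := M.off_diagonal i j hij; omega
  have hs := geom_sin_pos hm
  have hp : ∀ φ, ((D.sg i * D.sg j) ^ M i j) (sin (π / M i j + φ) • D.al i + sin φ • D.al j) =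
      sin (π / M i j + φ) • D.al i + sin φ • D.al j := fun φ => by
    have h1 := D.rot_pow i j (u := fun k => sin (k * (π / M i j) + φ)) (geom_sin _ _) (M i j)
    have h2 : (M i j : ℝ) ≠ 0 := by positivity
    have h3 : ((2 * M i j + 1 : ℕ) : ℝ) * (π / M i j) + φ = π / M i j + φ + 2 * π := by
      push_cast; field_simp; ring
    have h4 : ((2 * M i j : ℕ) : ℝ) * (π / M i j) + φ = φ + 2 * π := by
      push_cast; field_simp; ring
    rw [h3, h4, sin_add_two_pi, sin_add_two_pi] at h1
    simpa using h1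
  have ha : ((D.sg i * D.sg j) ^ M i j) (D.al i) = D.al i := by
    have := hp 0
    simp only [add_zero, sin_zero, zero_smul, map_smul] at this
    exact smul_right_injective V hs.ne' this
  have hb : ((D.sg i * D.sg j) ^ M i j) (D.al j) = D.al j := by
    have := hp (-(π / M i j))
    simp only [add_neg_cancel, sin_zero, zero_smul, zero_add, map_smul, sin_neg] at this
    exact smul_right_injective V (neg_ne_zero.2 hs.ne') this
  have hk : ∀ v, D.bil v (D.al i) = 0 → D.bil v (D.al j) = 0 →
      ((D.sg i * D.sg j) ^ M i j) v = v := fun v h1 h2 =>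
    Function.IsFixedPt.iterate (f := D.sg i * D.sg j) (by
      simp [Function.IsFixedPt, sg_apply, h1, h2]) (M i j) |> (Module.End.pow_apply _ _ _).trans
  ext v
  have hc : 1 - cos (π / M i j) ^ 2 ≠ 0 := by rw [← sin_sq]; positivity
  have hji : D.bil (D.al j) (D.al i) = -cos (π / M i j) := by rw [D.symm, D.gram]
  have hij' := D.gram i j
  generalize cos (π / M i j) = c at hc hji hij'
  have h5 := hk (v - ((D.bil v (D.al i) + c * D.bil v (D.al j)) / (1 - c ^ 2)) • D.al i -
    ((D.bil v (D.al j) + c * D.bil v (D.al i)) / (1 - c ^ 2)) • D.al j)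
    (by simp only [map_sub, map_smul, LinearMap.sub_apply, LinearMap.smul_apply, D.norm, hji,
          smul_eq_mul]
        field_simp; ring)
    (by simp only [map_sub, map_smul, LinearMap.sub_apply, LinearMap.smul_apply, D.norm, hij',
          smul_eq_mul]
        field_simp; ring)
  simpa only [map_sub, map_smul, ha, hb, sub_left_inj, Module.End.one_apply] using h5

variable (cs : CoxeterSystem M W)

/-- The representation. -/
noncomputable def rho : W →* Module.End ℝ V := cs.lift ⟨D.sg, D.liftable⟩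

theorem rho_simple (i : B) : D.rho cs (cs.simple i) = D.sg i := cs.lift_apply_simple _ i

theorem rho_mul (x y : W) (v : V) : D.rho cs (x * y) v = D.rho cs x (D.rho cs y v) := by
  rw [map_mul]; rfl

theorem rho_inv (w : W) (x y : V) : D.bil (D.rho cs w x) (D.rho cs w y) = D.bil x y := by
  induction w using cs.simple_induction_left with
  | one => simp
  | mul_simple_left w i ih =>
    rw [rho_mul, rho_mul, rho_simple, sg_apply, sg_apply, ← ih]
    simp only [map_sub, map_smul, LinearMap.sub_apply, LinearMap.smul_apply, D.norm, smul_eq_mul,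
      D.symm (D.al i) (D.rho cs w y)]
    ring

theorem rho_neg (w : W) (i : B) : D.rho cs (w * cs.simple i) (D.al i) = -D.rho cs w (D.al i) := by
  rw [rho_mul, rho_simple, sg_apply, D.norm, ← map_neg]
  congr 1
  module

theorem rho_conj (w : W) (i : B) (v : V) : D.rho cs (w * cs.simple i * w⁻¹) v =
    v - (2 * D.bil v (D.rho cs w (D.al i))) • D.rho cs w (D.al i) := by
  rw [rho_mul, rho_mul, rho_simple, sg_apply, map_sub, map_smul, ← D.rho_inv cs w, ← rho_mul,
    mul_inv_cancel, map_one, Module.End.one_apply]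

theorem geom_seq {i j : B} (hij : i ≠ j) : ∃ u : ℕ → ℝ, u 0 = 0 ∧ u 1 = 1 ∧
    (∀ k, u (k + 2) = 2 * cos (π / M i j) * u (k + 1) - u k) ∧
    ∀ k, (M i j ≠ 0 → k ≤ M i j) → 0 ≤ u k := by
  rcases Nat.eq_zero_or_pos (M i j) with h0 | h0
  · refine ⟨fun k => k, by simp, by simp, fun k => ?_, fun k _ => by positivity⟩
    rw [h0]; simp; ring
  have hm : 2 ≤ M i j := by have := M.off_diagonal i j hij; omega
  have hs := geom_sin_pos hm
  refine ⟨fun k => sin (k * (π / M i j) + 0) / sin (π / M i j), by simp, by simp [hs.ne'],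
    fun k => ?_, fun k hk => div_nonneg ?_ hs.le⟩
  · simp only [geom_sin]; ring
  · have h1 : (k : ℝ) ≤ M i j := by exact_mod_cast hk h0.ne'
    have h2 : (0 : ℝ) < M i j := by positivity
    refine sin_nonneg_of_nonneg_of_le_pi (by positivity) ?_
    rw [add_zero, ← mul_div_assoc, div_le_iff₀ h2, mul_comm]
    exact mul_le_mul_of_nonneg_left h1 pi_pos.le

theorem rho_alt {i j : B} (hij : i ≠ j) {k : ℕ} (hk : M i j ≠ 0 → k + 1 ≤ M i j) :
    ∃ x y : ℝ, 0 ≤ x ∧ 0 ≤ y ∧ D.rho cs (cs.wordProd (CoxeterSystem.alternatingWord i j k))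
      (D.al i) = x • D.al i + y • D.al j := by
  obtain ⟨u, u0, u1, hu, hp⟩ := geom_seq (M := M) hij
  have h1 := D.rot_pow i j hu (k / 2)
  rw [u0, u1, one_smul, zero_smul, add_zero] at h1
  have p1 := hp (k + 1) hk
  have p0 := hp k fun h => (Nat.le_succ k).trans (hk h)
  rw [cs.prod_alternatingWord_eq_mul_pow, rho_mul, map_pow, map_mul, rho_simple, rho_simple, h1]
  by_cases he : Even k
  · rw [if_pos he, Nat.two_mul_div_two_of_even he, map_one]
    exact ⟨_, _, p1, p0, rfl⟩
  · rw [if_neg he, rho_simple, sg_two, ← hu]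
    have h2 := Nat.two_mul_div_two_add_one_of_odd (Nat.not_even_iff_odd.1 he)
    rw [show 2 * (k / 2) + 2 = k + 1 by omega, h2]
    exact ⟨_, _, p0, p1, rfl⟩

theorem rho_pos {C : V → Prop} (h1 : ∀ i, C (D.al i))
    (h2 : ∀ (x y : ℝ) (a b : V), 0 ≤ x → 0 ≤ y → C a → C b → C (x • a + y • b)) (w : W) (i : B)
    (h : cs.length w < cs.length (w * cs.simple i)) : C (D.rho cs w (D.al i)) := by
  induction hn : cs.length w using Nat.strong_induction_on generalizing w i with
  | _ n ih =>
    by_cases hw : w = 1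
    · simpa [hw] using h1 i
    obtain ⟨j, hj⟩ := cs.exists_rightDescent_of_ne_one hw
    have hij : i ≠ j := fun e => by subst e; exact lt_asymm h hj
    have hex : ∃ l, ∃ v k, cs.length v = l ∧
        w = v * cs.wordProd (CoxeterSystem.alternatingWord i j (k + 1)) ∧
        cs.length w = cs.length v + (k + 1) :=
      ⟨_, w * cs.simple j, 0, rfl, by simp [CoxeterSystem.alternatingWord],
        (cs.isRightDescent_iff.1 hj).symm⟩
    classical
    obtain ⟨v, k, hv, hw1, hw2⟩ := Nat.find_spec hex
    have hx : cs.length v < cs.length (v * cs.simple (if Even (k + 1) then j else i)) := by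
      by_contra hc
      have h3 := cs.length_mul_simple v (if Even (k + 1) then j else i)
      refine Nat.find_min hex (m := cs.length (v * cs.simple (if Even (k + 1) then j else i)))
        (by omega) ⟨_, k + 1, rfl, ?_, by omega⟩
      rw [CoxeterSystem.alternatingWord_succ', cs.wordProd_cons, ← mul_assoc,
        cs.simple_mul_simple_cancel_right]
      exact hw1
    have hy : cs.length v < cs.length (v * cs.simple (if Even k then j else i)) := by
      rw [CoxeterSystem.alternatingWord_succ', cs.wordProd_cons, ← mul_assoc] at hw1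
      have h3 := cs.length_mul_le (v * cs.simple (if Even k then j else i))
        (cs.wordProd (CoxeterSystem.alternatingWord i j k))
      have h4 := cs.length_wordProd_le (CoxeterSystem.alternatingWord i j k)
      rw [CoxeterSystem.length_alternatingWord] at h4
      rw [← hw1] at h3
      omega
    have hij' : cs.length v < cs.length (v * cs.simple i) ∧
        cs.length v < cs.length (v * cs.simple j) := by
      by_cases he : Even k
      · rw [if_pos he] at hy
        rw [if_neg (by simpa [Nat.even_add_one] using he)] at hx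
        exact ⟨hx, hy⟩
      · rw [if_neg he] at hy
        rw [if_pos (by simpa [Nat.even_add_one] using he)] at hx
        exact ⟨hy, hx⟩
    obtain ⟨x, y, hx0, hy0, h5⟩ := D.rho_alt cs hij (k := k + 1) fun hM => by
      by_contra hc
      refine cs.not_isReduced_alternatingWord j i (m := k + 2) (by rwa [M.symmetric])
        (by rw [M.symmetric]; omega) (le_antisymm (cs.length_wordProd_le _) ?_)
      have h3 := cs.length_mul_le v (cs.wordProd (CoxeterSystem.alternatingWord j i (k + 2)))
      rw [CoxeterSystem.length_alternatingWord]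
      nth_rw 1 [CoxeterSystem.alternatingWord_succ] at h3
      rw [cs.wordProd_concat, ← mul_assoc, ← hw1] at h3
      omega
    rw [hw1, rho_mul, h5, map_add, map_smul, map_smul]
    exact h2 _ _ _ _ hx0 hy0 (ih _ (by omega) v i hij'.1 rfl) (ih _ (by omega) v j hij'.2 rfl)

end GeomData

end geom_abs

variable {B : Type} [Fintype B] [DecidableEq B] {W : Type*} [Group W] {M : CoxeterMatrix B}

/-- `a s t = 2 cos (π / m)` for `s ≠ t` (so `2` for `m = ∞`), and `0` on the diagonal. -/
noncomputable def aa (M : CoxeterMatrix B) (s t : B) : ℝ :=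
  if s = t then 0 else 2 * cos (π / M s t)

/-- The coroot of `u`. -/
noncomputable def cor (M : CoxeterMatrix B) (u : B) (v : B → ℝ) : ℝ :=
  2 * v u - ∑ s, aa M u s * v s

/-- The simple root. -/
def ee (u : B) : B → ℝ := Pi.single u 1

/-- `v` vanishes outside `T`. -/
def Supp (T : Finset B) (v : B → ℝ) : Prop := ∀ s, s ∉ T → v s = 0

omit [Fintype B] in
theorem aa_self (s : B) : aa M s s = 0 := if_pos rfl

omit [Fintype B] in
theorem aa_symm (s t : B) : aa M s t = aa M t s := by
  unfold aa
  by_cases h : s = t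
  · simp [h]
  · rw [if_neg h, if_neg (Ne.symm h), M.symmetric]

omit [Fintype B] in
theorem aa_nonneg (s t : B) : 0 ≤ aa M s t := by
  unfold aa
  split_ifs with h
  · exact le_rfl
  rcases Nat.eq_zero_or_pos (M s t) with h0 | h0
  · simp [h0]
  have hm : (2 : ℝ) ≤ M s t := by
    have := M.off_diagonal s t h
    exact_mod_cast (show 2 ≤ M s t by omega)
  refine mul_nonneg two_pos.le (cos_nonneg_of_neg_pi_div_two_le_of_le ?_ ?_)
  · have : 0 ≤ π / (M s t : ℝ) := by positivity
    linarith [pi_pos]
  · exact div_le_div_of_nonneg_left pi_pos.le two_pos hm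

omit [Fintype B] in
theorem aa_lt_two {s t : B} (h : M s t ≠ 0) : aa M s t < 2 := by
  unfold aa
  split_ifs with h1
  · norm_num
  have hm : (2 : ℝ) ≤ M s t := by
    have := M.off_diagonal s t h1
    exact_mod_cast (show 2 ≤ M s t by omega)
  have h2 : 0 < π / (M s t : ℝ) := by positivity
  have h3 : π / (M s t : ℝ) ≤ π := div_le_self pi_pos.le (by linarith)
  have := cos_lt_cos_of_nonneg_of_le_pi le_rfl h3 h2
  rw [cos_zero] at this
  linarith

omit [Fintype B] in
theorem aa_eq_zero_iff {s t : B} (h : s ≠ t) : aa M s t = 0 ↔ M s t = 2 := by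
  unfold aa
  rw [if_neg h]
  refine ⟨fun h0 => ?_, fun h2 => by simp [h2]⟩
  by_contra h2
  rcases Nat.eq_zero_or_pos (M s t) with h1 | h1
  · simp [h1] at h0
  have hm : (2 : ℝ) < M s t := by
    have := M.off_diagonal s t h
    exact_mod_cast (show 2 < M s t by omega)
  have h3 : 0 < cos (π / (M s t : ℝ)) := by
    refine cos_pos_of_mem_Ioo ⟨?_, div_lt_div_of_pos_left pi_pos two_pos hm⟩
    have : 0 ≤ π / (M s t : ℝ) := by positivity
    linarith [pi_pos]
  linarith

omit [Fintype B] in
theorem ee_apply (u s : B) : ee u s = if s = u then 1 else 0 := by simp [ee, Pi.single_apply]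

omit [Fintype B] in
theorem ee_nonneg (u : B) : 0 ≤ ee u := fun s => by
  rw [ee_apply]; split_ifs <;> norm_num

theorem cor_add (u : B) (v v' : B → ℝ) : cor M u (v + v') = cor M u v + cor M u v' := by
  simp only [cor, Pi.add_apply, mul_add, Finset.sum_add_distrib]; ring

theorem cor_smul (u : B) (c : ℝ) (v : B → ℝ) : cor M u (c • v) = c * cor M u v := by
  simp only [cor, Pi.smul_apply, smul_eq_mul, mul_sub, Finset.mul_sum]
  congr 1
  · ring
  · exact Finset.sum_congr rfl fun _ _ => by ring

theorem cor_sub (u : B) (v v' : B → ℝ) : cor M u (v - v') = cor M u v - cor M u v' := by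
  simp only [cor, Pi.sub_apply, mul_sub, Finset.sum_sub_distrib]; ring

theorem cor_ee_self (u : B) : cor M u (ee u) = 2 := by
  simp [cor, ee_apply, aa_self]

theorem cor_ee {u t : B} (h : u ≠ t) : cor M u (ee t) = -aa M u t := by
  simp [cor, ee_apply, h]

theorem sum_ee (v : B → ℝ) : v = ∑ u, v u • ee u := by
  ext s
  simp [Finset.sum_apply, ee_apply]

/-- The invariant form. -/
noncomputable def bil (M : CoxeterMatrix B) : (B → ℝ) →ₗ[ℝ] (B → ℝ) →ₗ[ℝ] ℝ :=
  Matrix.toLinearMap₂' ℝ (Matrix.of fun s t => -cos (π / M s t))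

theorem bil_apply (x y : B → ℝ) : bil M x y = ∑ s, ∑ t, x s * y t * -cos (π / M s t) := by
  simp [bil, Matrix.toLinearMap₂'_apply, mul_assoc]

theorem bil_symm (x y : B → ℝ) : bil M x y = bil M y x := by
  rw [bil_apply, bil_apply, Finset.sum_comm]
  exact Finset.sum_congr rfl fun s _ => Finset.sum_congr rfl fun t _ => by
    rw [M.symmetric t s]; ring

theorem two_bil_ee (v : B → ℝ) (u : B) : 2 * bil M v (ee u) = cor M u v := by
  rw [bil_apply, cor, Finset.mul_sum]
  have : 2 * v u = ∑ s, if s = u then 2 * v s else 0 := by simp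
  rw [this, ← Finset.sum_sub_distrib]
  refine Finset.sum_congr rfl fun s _ => ?_
  simp only [ee_apply, mul_ite, mul_one, mul_zero, ite_mul, zero_mul, Finset.sum_ite_eq',
    Finset.mem_univ, if_true, aa]
  by_cases h : s = u
  · subst h; simp
  · rw [if_neg h, if_neg (Ne.symm h), M.symmetric u s]; ring

theorem two_bil (x y : B → ℝ) : 2 * bil M x y = ∑ u, y u * cor M u x := by
  conv_lhs => rw [sum_ee y]
  rw [map_sum, Finset.mul_sum]
  exact Finset.sum_congr rfl fun u _ => by rw [map_smul, smul_eq_mul, ← two_bil_ee]; ring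

/-- The concrete data. -/
noncomputable def gd (M : CoxeterMatrix B) : GeomData M (B → ℝ) where
  bil := bil M
  al := ee
  symm := bil_symm
  gram i j := by simp [bil_apply, ee_apply]

variable (cs : CoxeterSystem M W)

/-- The geometric representation. -/
noncomputable def rho : W →* Module.End ℝ (B → ℝ) := (gd M).rho cs

theorem rho_mul (x y : W) (v : B → ℝ) : rho cs (x * y) v = rho cs x (rho cs y v) :=
  (gd M).rho_mul cs x y v

theorem rho_one (v : B → ℝ) : rho cs 1 v = v := by rw [map_one]; rfl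

theorem rho_inv_self (x : W) (v : B → ℝ) : rho cs x⁻¹ (rho cs x v) = v := by
  rw [← rho_mul, inv_mul_cancel, rho_one]

theorem rho_self_inv (x : W) (v : B → ℝ) : rho cs x (rho cs x⁻¹ v) = v := by
  rw [← rho_mul, mul_inv_cancel, rho_one]

theorem rho_simple (u : B) (v : B → ℝ) : rho cs (cs.simple u) v = v - cor M u v • ee u := by
  rw [rho, GeomData.rho_simple, GeomData.sg_apply, ← two_bil_ee]; rfl

theorem rho_simple_ne {u s : B} (h : s ≠ u) (v : B → ℝ) : rho cs (cs.simple u) v s = v s := by
  simp [rho_simple, ee_apply, h]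

theorem rho_simple_self (u : B) (v : B → ℝ) :
    rho cs (cs.simple u) v u = -v u + ∑ s, aa M u s * v s := by
  simp [rho_simple, ee_apply, cor]; ring

theorem bil_rho (w : W) (x y : B → ℝ) : bil M (rho cs w x) (rho cs w y) = bil M x y :=
  (gd M).rho_inv cs w x y

theorem bil_ee_self (u : B) : bil M (ee u) (ee u) = 1 := (gd M).norm u

theorem rho_neg (w : W) (u : B) : rho cs (w * cs.simple u) (ee u) = -rho cs w (ee u) :=
  (gd M).rho_neg cs w u

theorem rho_ee_ne_zero (w : W) (u : B) : rho cs w (ee u) ≠ 0 := fun h => by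
  have := bil_rho cs w (ee u) (ee u)
  rw [h, bil_ee_self] at this
  simp at this

theorem rho_ee_nonneg {w : W} {u : B} (h : ¬ cs.IsRightDescent w u) : 0 ≤ rho cs w (ee u) :=
  (gd M).rho_pos cs (C := fun v => 0 ≤ v) ee_nonneg
    (fun _ _ _ _ hx hy ha hb => add_nonneg (smul_nonneg hx ha) (smul_nonneg hy hb)) w u
    (by rw [cs.not_isRightDescent_iff] at h; omega)

theorem rho_ee_nonpos {w : W} {u : B} (h : cs.IsRightDescent w u) : rho cs w (ee u) ≤ 0 := by
  have := rho_ee_nonneg cs (cs.isRightDescent_iff_not_isRightDescent_mul.1 h)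
  rwa [rho_neg, neg_nonneg] at this

theorem not_descent_iff {w : W} {u : B} : ¬ cs.IsRightDescent w u ↔ 0 ≤ rho cs w (ee u) :=
  ⟨rho_ee_nonneg cs, fun h hd => rho_ee_ne_zero cs w u (le_antisymm (rho_ee_nonpos cs hd) h)⟩

theorem descent_iff {w : W} {u : B} : cs.IsRightDescent w u ↔ rho cs w (ee u) ≤ 0 :=
  ⟨rho_ee_nonpos cs, fun h => by
    by_contra hd
    exact rho_ee_ne_zero cs w u (le_antisymm h (rho_ee_nonneg cs hd))⟩

omit [Fintype B] [DecidableEq B] in
theorem simple_mem {T : Finset B} {t : B} (ht : t ∈ T) : cs.simple t ∈ WP cs T :=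
  Subgroup.subset_closure ⟨t, ht, rfl⟩

omit [Fintype B] [DecidableEq B] in
theorem WP_mono {T R : Finset B} (h : T ⊆ R) : WP cs T ≤ WP cs R :=
  Subgroup.closure_mono (Set.image_mono h)

omit [Fintype B] [DecidableEq B] in
/-- Induction on `W_T`. -/
theorem WP_ind {T : Finset B} {p : W → Prop} (h1 : p 1)
    (h2 : ∀ w t, w ∈ WP cs T → t ∈ T → p w → p (w * cs.simple t)) {w : W} (hw : w ∈ WP cs T) :
    p w := by
  induction hw using Subgroup.closure_induction_right with
  | one => exact h1
  | mul_right x hx y hy ih => obtain ⟨t, ht, rfl⟩ := hy; exact h2 x t hx ht ih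
  | mul_inv_cancel x hx y hy ih =>
    obtain ⟨t, ht, rfl⟩ := hy
    rw [cs.inv_simple]; exact h2 x t hx ht ih

/-- `W_T` only changes the coordinates in `T`. -/
theorem rho_out {T : Finset B} {w : W} (hw : w ∈ WP cs T) (v : B → ℝ) {s : B} (hs : s ∉ T) :
    rho cs w v s = v s := by
  refine WP_ind cs (p := fun w => ∀ v, rho cs w v s = v s) (fun v => by rw [rho_one]) ?_ hw v
  intro w t _ ht ih v
  rw [rho_mul, ih, rho_simple_ne cs (fun h : s = t => hs (h ▸ ht))]

theorem Supp.rho {T : Finset B} {w : W} (hw : w ∈ WP cs T) {v : B → ℝ} (hv : Supp T v) :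
    Supp T (rho cs w v) := fun s hs => by rw [rho_out cs hw v hs, hv s hs]

omit [Fintype B] in
theorem supp_ee {T : Finset B} {t : B} (ht : t ∈ T) : Supp T (ee t) := fun s hs => by
  rw [ee_apply, if_neg (fun h : s = t => hs (h ▸ ht))]

/-- If no `t ∈ T` is a right descent of `w` then `w` keeps the cone over `T` positive. -/
theorem rho_nonneg {T : Finset B} {w : W} (hw : ∀ t ∈ T, ¬ cs.IsRightDescent w t) {v : B → ℝ}
    (hv : Supp T v) (h0 : 0 ≤ v) : 0 ≤ rho cs w v := by
  rw [sum_ee v, map_sum]
  refine Finset.sum_nonneg fun u _ => ?_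
  rw [map_smul]
  by_cases hu : u ∈ T
  · exact smul_nonneg (h0 u) (rho_ee_nonneg cs (hw u hu))
  · rw [hv u hu, zero_smul]

theorem rho_nonpos {T : Finset B} {w : W} (hw : ∀ t ∈ T, cs.IsRightDescent w t) {v : B → ℝ}
    (hv : Supp T v) (h0 : 0 ≤ v) : rho cs w v ≤ 0 := by
  rw [sum_ee v, map_sum]
  refine Finset.sum_nonpos fun u _ => ?_
  rw [map_smul]
  by_cases hu : u ∈ T
  · exact smul_nonpos_of_nonneg_of_nonpos (h0 u) (rho_ee_nonpos cs (hw u hu))
  · rw [hv u hu, zero_smul]

end Vale.Agent.P203
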